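import Vale.Agent.P189.H741.Main

set_option autoImplicit false

open MeasureTheory
open scoped ENNReal

namespace Vale.Agent.Results.P189.EveryCost

open Vale.Agent.P189 Vale.Agent.P189.M

theorem result :
    (¬ ∀ (Γ : Type) [Group Γ] [Countable Γ], ∃ c : ℝ≥0∞, HasFixedPrice Γ c) ∧
    (Countable (Gam ℕ) ∧ ∀ c : ℝ≥0∞, Attains (Gam ℕ) c ↔ 1 ≤ c) ∧
    ∀ k : ℕ, (rels (Fin k)).Finite ∧ Countable (Gam (Fin k)) ∧ Group.FG (Gam (Fin k)) ∧
      ∀ c : ℝ≥0∞, 1 ≤ c → c ≤ 1 + (k : ℝ≥0∞) / 81 → Attains (Gam (Fin k)) c :=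
  ⟨not_fixed_price, ⟨gam_countable ℕ, main_nat convSt midUpperSt⟩,
    fun k => ⟨rels_finite k, gam_countable (Fin k), gam_fg k, main_fin convSt midUpperSt k⟩⟩

end Vale.Agent.Results.P189.EveryCost
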