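import Vale.Agent.P189.H650.Fin

set_option autoImplicit false

open MeasureTheory
open scoped ENNReal

namespace Vale.Agent.Results.P189.UniversalRetract

open Vale.Agent.P189 Vale.Agent.P189.R

theorem result :
    (¬ ∀ (Γ : Type) [Group Γ] [Countable Γ], ∃ c : ℝ≥0∞, HasFixedPrice Γ c) ∧
    (∀ (H : Type) [Group H] [Countable H],
      ∃ (G : Type) (_ : Group G) (i : H →* G) (r : G →* H), Countable G ∧
        r.comp i = MonoidHom.id H ∧ ∀ c : ℝ≥0∞, Attains G c ↔ 1 ≤ c) ∧
    ∀ (H : Type) [Group H] [Countable H] (K : ℕ),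
      ∃ (G : Type) (_ : Group G) (i : H →* G) (r : G →* H), Countable G ∧
        r.comp i = MonoidHom.id H ∧ (Group.FG H → Group.FG G) ∧
        (Group.IsFinitelyPresented H → Group.IsFinitelyPresented G) ∧
        ∀ c : ℝ≥0∞, 1 ≤ c → c ≤ K → Attains G c :=
  ⟨not_fixed_price, fun H _ _ => retract_nat H, fun H _ _ K => retract_fin H K⟩

end Vale.Agent.Results.P189.UniversalRetract
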